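import Vale.Agent.P098.H709.Liou
import Vale.Agent.P098.H510.Conv

/-!
# P098: Lipschitz competitors suffice; cylinders over minimizers
-/

open MeasureTheory Set Metric Filter
open scoped ContDiff RealInnerProductSpace Topology NNReal ENNReal

namespace Vale.Agent.N098

open Vale.Agent.P098

variable {d : ℕ}

lemma fderiv_max {f : E d → ℝ} (hf : Continuous f) (x : E d) :
    ‖fderiv ℝ (fun y => max (f y) 0) x‖ ≤ ‖fderiv ℝ f x‖ := by
  rcases lt_or_ge 0 (f x) with h | h
  · have : (fun y => max (f y) 0) =ᶠ[𝓝 x] f := by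
      filter_upwards [hf.continuousAt.eventually (lt_mem_nhds h)] with y hy
      exact max_eq_left hy.le
    rw [this.fderiv_eq]
  · have : IsLocalMin (fun y => max (f y) 0) x := Eventually.of_forall fun y => by
      simp only [max_eq_right h]
      exact le_max_right _ _
    rw [this.fderiv_eq_zero, norm_zero]
    exact norm_nonneg _

lemma dens_int {V v : E d → ℝ} {KV K : ℝ≥0} (hV : LipschitzWith KV V) (hv : LipschitzWith K v)
    (hc : HasCompactSupport fun x => V x - v x) : Integrable (rM10_dens V v) := by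
  refine rM10_int (rM10_dens_meas hV.continuous hv.continuous) _ (rM10_dens_bd hV hv)
    hc.isCompact fun x hx => rM10_dens_zero ?_
  filter_upwards [notMem_tsupport_iff_eventuallyEq.1 hx] with y hy
  exact sub_eq_zero.1 hy

lemma sq_bound {N a b θ : ℝ} (hN : 0 ≤ N) (h : N ≤ a + b + θ) (h0 : 0 < θ) (h1 : θ ≤ 1) :
    N ^ 2 ≤ a ^ 2 + θ * (a ^ 2 + 4) + 4 / θ * b ^ 2 := by
  have h2 : N ^ 2 ≤ (a + b + θ) ^ 2 := pow_le_pow_left₀ hN h 2
  have h3 : 4 / θ * b ^ 2 = 4 * b ^ 2 / θ := by ring
  have h4 : (a + b + θ) ^ 2 - a ^ 2 - θ * (a ^ 2 + 4) ≤ 4 * b ^ 2 / θ := by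
    rw [le_div_iff₀ h0]
    nlinarith [sq_nonneg (θ * a - (b + θ)), sq_nonneg (b - θ),
      mul_nonneg (sub_nonneg.2 h1) (sq_nonneg (b + θ))]
  linarith

/-- Minimality against Lipschitz competitors gives minimality against Sobolev competitors. -/
theorem global_of_minL {K : ℝ≥0} {u : E d → ℝ} (hu : MinL K u) : IsGlobalMinimizer u := by
  refine ⟨hu.nonneg, gradient u, fun x₀ r hr =>
    ⟨ModA.memH1_of_lipschitz hu.lip x₀ r, fun v gv hv0 hv hd => ?_⟩⟩
  have hfin := H510.ball_fin x₀ r
  have hU := ModA.memH1_of_lipschitz hu.lip x₀ r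
  set η : E d → ℝ := fun x => max (r - dist x x₀) 0 with hηd
  have hη : LipschitzWith 1 η := by
    refine LipschitzWith.max_const (LipschitzWith.of_dist_le_mul fun x y => ?_) 0
    rw [Real.dist_eq, show r - dist x x₀ - (r - dist y x₀) = dist y x₀ - dist x x₀ by ring,
      NNReal.coe_one, one_mul, dist_comm x y]
    exact abs_dist_sub_le _ _ _
  set I : ℝ → E d → ℝ := fun s => {y | η y ≤ s}.indicator fun _ => (1 : ℝ) with hI
  have mI : ∀ s, Measurable (I s) := fun s =>
    measurable_const.indicator (isClosed_le hη.continuous continuous_const).measurableSet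
  have bI : ∀ s x, ‖I s x‖ ≤ 1 := fun s x => by
    simp only [hI, indicator]
    split_ifs <;> simp
  have iI : ∀ s, Integrable (I s) (volume.restrict (ball x₀ r)) := fun s =>
    (integrable_const (1 : ℝ)).mono' (mI s).aestronglyMeasurable (Eventually.of_forall (bI s))
  have iv := (rS4_sq hv.2.1).add (rS4_ind hv.1)
  have iu := (rS4_sq hU.2.1).add (rS4_ind hU.1)
  have iG : Integrable (fun x => ‖gv x‖ ^ 2 + 4) (volume.restrict (ball x₀ r)) :=
    (rS4_sq hv.2.1).add (integrable_const _)
  set G := ∫ x in ball x₀ r, (‖gv x‖ ^ 2 + 4) with hG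
  have G0 : 0 ≤ G := integral_nonneg fun x => by positivity
  have key : ∀ θ, 0 < θ → θ ≤ 1 → ∀ s, 0 < s → ∀ ε, 0 < ε → energy (ball x₀ r) u (gradient u) ≤
      energy (ball x₀ r) v gv + θ * G + (∫ x in ball x₀ r, I s x)
        + (4 / θ + 1 / (θ * s) ^ 2) * ε := by
    intro θ h0 h1 s hs ε hε
    obtain ⟨φ, hφ, hφc, hφs, hle⟩ := hd.2 ε hε
    obtain ⟨Kφ, hKφ⟩ := hφ.lipschitzWith_of_hasCompactSupport hφc (by simp)
    have hΦ := ModA.memH1_of_lipschitz hKφ x₀ r
    have hθη : LipschitzWith (‖θ‖₊ * 1) fun x => θ * η x := (lipschitzWith_smul θ).comp hη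
    have hf := (hu.lip.add hKφ).sub hθη
    set f : E d → ℝ := fun x => u x + φ x - θ * η x with hfd
    have hV : LipschitzWith _ fun x => max (f x) 0 := hf.max_const 0
    have hout : ∀ x, x ∉ ball x₀ r → max (f x) 0 = u x := fun x hx => by
      have h2 : φ x = 0 := image_eq_zero_of_notMem_tsupport fun h => hx (hφs h)
      have h3 : η x = 0 := max_eq_right (by simpa using hx)
      simp [hfd, h2, h3, hu.nonneg x]
    have hc : HasCompactSupport fun x => max (f x) 0 - u x :=
      HasCompactSupport.intro (isCompact_closedBall x₀ r) fun x hx => by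
        rw [hout x fun h => hx (ball_subset_closedBall h), sub_self]
    have hmin : 0 ≤ ∫ x, rM10_dens (fun x => max (f x) 0) u x :=
      hu.min _ ⟨_, hV⟩ (fun x => le_max_right _ _) hc
    rw [← setIntegral_eq_integral_of_ae_compl_eq_zero (s := ball x₀ r)] at hmin
    swap
    · filter_upwards [compl_mem_ae_iff.2 (Measure.addHaar_sphere_of_ne_zero volume x₀ hr.ne')] with x h2 h3
      refine rM10_dens_zero ?_
      have h4 : x ∈ (closedBall x₀ r)ᶜ := fun h => by
        rw [← ball_union_sphere] at h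
        exact h.elim h3 h2
      filter_upwards [isClosed_closedBall.isOpen_compl.mem_nhds h4] with y hy
      exact hout y fun h => hy (ball_subset_closedBall h)
    have i1 : Integrable (fun x => (v x - u x - φ x) ^ 2) (volume.restrict (ball x₀ r)) :=
      (hd.1.1.sub hΦ.1).integrable_sq
    have i2 : Integrable (fun x => ‖gv x - gradient u x - gradient φ x‖ ^ 2)
        (volume.restrict (ball x₀ r)) := rS4_sq (hd.1.2.1.sub hΦ.2.1)
    have j1 := (iv.sub iu).add (iG.const_mul θ)
    have j2 := j1.add (iI s)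
    have j3 := (i1.add i2).const_mul (4 / θ + 1 / (θ * s) ^ 2)
    have hm := integral_mono_ae (dens_int hV hu.lip hc).integrableOn (j2.add j3) (by
      refine ae_restrict_of_ae ?_
      filter_upwards [hu.lip.ae_differentiableAt, hη.ae_differentiableAt] with x d1 d2
      have d3 : DifferentiableAt ℝ φ x := hφ.differentiable (by simp) x
      have e1 : fderiv ℝ f x = fderiv ℝ u x + fderiv ℝ φ x - θ • fderiv ℝ η x :=
        ((d1.hasFDerivAt.add d3.hasFDerivAt).sub (d2.hasFDerivAt.const_mul θ)).fderiv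
      have e2 : ‖fderiv ℝ u x + fderiv ℝ φ x‖ = ‖gv x - (gv x - gradient u x - gradient φ x)‖ := by
        rw [show gv x - (gv x - gradient u x - gradient φ x) = gradient u x + gradient φ x by abel,
          gradient, gradient, ← map_add, LinearIsometryEquiv.norm_map]
      have e3 : ‖θ • fderiv ℝ η x‖ ≤ θ := by
        rw [norm_smul, Real.norm_of_nonneg h0.le]
        exact mul_le_of_le_one_right h0.le (by simpa using norm_fderiv_le_of_lipschitz ℝ hη)
      have e4 := sq_bound (norm_nonneg _) ((fderiv_max hf.continuous x).trans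
        (show ‖fderiv ℝ f x‖ ≤ ‖gv x‖ + ‖gv x - gradient u x - gradient φ x‖ + θ by
          rw [e1]
          exact (norm_sub_le _ _).trans (add_le_add (e2 ▸ norm_sub_le _ _) e3))) h0 h1
      have e5 : {y | 0 < max (f y) 0}.indicator (fun _ => (1 : ℝ)) x ≤
          {y | 0 < v y}.indicator (fun _ => (1 : ℝ)) x + I s x
            + 1 / (θ * s) ^ 2 * (v x - u x - φ x) ^ 2 := by
        have p0 : 0 ≤ 1 / (θ * s) ^ 2 * (v x - u x - φ x) ^ 2 := by positivity
        simp only [hI, indicator, mem_ofPred_eq]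
        split_ifs with c1 c2 c3 c3 c2 c3 c3
        any_goals linarith
        have c4 : v x = 0 := le_antisymm (not_lt.1 c2) (hv0 x)
        have c5 : 0 < u x + φ x - θ * η x := (lt_max_iff.1 c1).resolve_right (lt_irrefl _)
        have c6 : θ * s < θ * η x := mul_lt_mul_of_pos_left (not_le.1 c3) h0
        have c7 : 0 < θ * s := by positivity
        rw [c4, zero_add, zero_add, one_div_mul_eq_div, le_div_iff₀ (by positivity)]
        nlinarith
      have p1 : 0 ≤ 4 / θ * (v x - u x - φ x) ^ 2 := by positivity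
      have p2 : 0 ≤ 1 / (θ * s) ^ 2 * ‖gv x - gradient u x - gradient φ x‖ ^ 2 := by positivity
      simp only [rM10_dens, Pi.add_apply, Pi.sub_apply, ModA.norm_gradient]
      nlinarith)
    rw [integral_add' j2 j3, integral_add' j1 (iI s), integral_add' (iv.sub iu) (iG.const_mul θ),
      integral_sub' iv iu, integral_const_mul, integral_const_mul, integral_add' i1 i2] at hm
    have := mul_le_mul_of_nonneg_left hle.le
      (show 0 ≤ 4 / θ + 1 / (θ * s) ^ 2 by positivity)
    simp only [Pi.add_apply] at hm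
    unfold energy
    linarith
  have lim : Tendsto (fun k : ℕ => ∫ x in ball x₀ r, I (1 / ((k : ℝ) + 1)) x) atTop (𝓝 0) := by
    have := tendsto_integral_of_dominated_convergence (μ := volume.restrict (ball x₀ r))
      (F := fun k : ℕ => I (1 / ((k : ℝ) + 1))) (f := fun _ => 0) (fun _ => 1)
      (fun k => (mI _).aestronglyMeasurable) (integrable_const _)
      (fun k => Eventually.of_forall (bI _)) (by
        filter_upwards [ae_restrict_mem measurableSet_ball] with x hx
        have h1 : 0 < η x := lt_max_of_lt_left (sub_pos.2 hx)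
        refine tendsto_const_nhds.congr' ?_
        filter_upwards [tendsto_one_div_add_atTop_nhds_zero_nat.eventually (gt_mem_nhds h1)]
          with k hk
        exact (indicator_of_notMem (by simpa using hk) _).symm)
    simpa using this
  have k2 : ∀ θ, 0 < θ → θ ≤ 1 →
      energy (ball x₀ r) u (gradient u) ≤ energy (ball x₀ r) v gv + θ * G := by
    intro θ h0 h1
    have := tendsto_const_nhds (x := energy (ball x₀ r) v gv + θ * G) |>.add lim
    rw [add_zero] at this
    refine ge_of_tendsto' this fun k => le_of_forall_pos_le_add fun γ hγ => ?_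
    have hC : 0 < 4 / θ + 1 / (θ * (1 / ((k : ℝ) + 1))) ^ 2 := by positivity
    have := key θ h0 h1 (1 / ((k : ℝ) + 1)) (by positivity) (γ / _) (div_pos hγ hC)
    rwa [mul_div_cancel₀ _ hC.ne'] at this
  refine le_of_forall_pos_le_add fun γ hγ => ?_
  refine (k2 (min 1 (γ / (G + 1))) (by positivity) (min_le_left _ _)).trans ?_
  have h1 : min 1 (γ / (G + 1)) * G ≤ γ / (G + 1) * (G + 1) :=
    mul_le_mul (min_le_right _ _) (by linarith) G0 (by positivity)
  rw [div_mul_cancel₀ _ (by positivity)] at h1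
  linarith

section
variable {n : ℕ} {e : E (n + 1)} (ι : E n →ₗᵢ[ℝ] E (n + 1)) (he : ‖e‖ = 1)
  (h0 : ∀ y, ⟪ι y, e⟫ = 0)
include he h0

theorem minL_step {L : ℝ≥0} {w : E n → ℝ} (hw : MinL L w) :
    MinL L fun x => w (rM10_pr ι x) := by
  have hp : LipschitzWith 1 (rM10_pr ι) := LipschitzWith.of_dist_le_mul fun x y => by
    rw [dist_eq_norm, dist_eq_norm, ← map_sub, NNReal.coe_one, one_mul]
    exact rM10_pr_norm ι _
  have hv : LipschitzWith L fun x => w (rM10_pr ι x) := mul_one L ▸ hw.lip.comp hp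
  refine ⟨hv, fun x => hw.nonneg _, ?_⟩
  rintro V ⟨KV, hV⟩ hV0 hc
  change 0 ≤ ∫ x, rM10_dens V (fun x => w (rM10_pr ι x)) x
  have hmp : MeasurePreserving (fun p : ℝ × E n => ι p.2 + p.1 • e) (volume.prod volume) volume :=
    (rM10_mp ι he h0).comp Measure.measurePreserving_swap
  have hi := dens_int hV hv hc
  have hi' := hmp.integrable_comp_of_integrable hi
  rw [← hmp.map_eq, integral_map hmp.measurable.aemeasurable
    (rM10_dens_meas hV.continuous hv.continuous).aestronglyMeasurable]
  erw [integral_prod _ hi']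
  refine integral_nonneg_of_ae ?_
  filter_upwards [hi'.prod_right_ae,
    Measure.ae_ae_of_ae_prod (hmp.quasiMeasurePreserving.ae hV.ae_differentiableAt)] with t i1 i2
  have hiso : Isometry fun y : E n => ι y + t • e :=
    (isometry_add_right (t • e)).comp ι.isometry
  have hVt : LipschitzWith (KV * 1) fun y => V (ι y + t • e) := hV.comp hiso.lipschitz
  have hct : HasCompactSupport fun y => V (ι y + t • e) - w y := by
    have := hc.comp_isClosedEmbedding hiso.isClosedEmbedding
    simpa only [Function.comp_def, rM10_pr_apply ι h0] using this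
  refine (hw.min _ ⟨_, hVt⟩ (fun y => hV0 _) hct).trans
    (integral_mono_ae (dens_int hVt hw.lip hct) i1 ?_)
  filter_upwards [i2] with y hy
  have h1 : HasFDerivAt (fun y : E n => ι y + t • e) ι.toContinuousLinearMap y :=
    ι.toContinuousLinearMap.hasFDerivAt.add_const _
  have h2 : ‖fderiv ℝ (fun y => V (ι y + t • e)) y‖ ≤ ‖fderiv ℝ V (ι y + t • e)‖ := by
    rw [show fderiv ℝ (fun y => V (ι y + t • e)) y = _ from (hy.hasFDerivAt.comp y h1).fderiv]
    refine ContinuousLinearMap.opNorm_le_bound _ (norm_nonneg _) fun z => ?_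
    simpa using (fderiv ℝ V (ι y + t • e)).le_opNorm (ι z)
  have h3 := pow_le_pow_left₀ (norm_nonneg _) h2 2
  classical
  simp only [rM10_dens, Function.comp_apply, rM10_fderiv ι h0, indicator_apply, mem_ofPred_eq,
    rM10_pr_apply ι h0]
  linarith

lemma ae_pr {p : E n → Prop} : (∀ᵐ x, p (rM10_pr ι x)) ↔ ∀ᵐ y, p y := by
  have hmp := rM10_mp ι he h0
  constructor
  · intro h
    have h1 := hmp.quasiMeasurePreserving.ae h
    simp only [rM10_pr_apply ι h0] at h1
    have h2 : (volume.prod volume : Measure (E n × ℝ)) ({y | ¬ p y} ×ˢ univ) = 0 := by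
      refine Eq.trans ?_ (ae_iff.1 h1)
      congr 1
      ext q
      simp
    rw [Measure.prod_prod] at h2
    simpa [ae_iff] using h2
  · intro h
    obtain ⟨N, hN, hm, hz⟩ := exists_measurable_superset_of_null (ae_iff.1 h)
    have h1 : volume (rM10_pr ι ⁻¹' N) = 0 := by
      rw [← hmp.measure_preimage ((rM10_pr ι).continuous.measurable hm).nullMeasurableSet,
        show (fun q : E n × ℝ => ι q.1 + q.2 • e) ⁻¹' (rM10_pr ι ⁻¹' N) = N ×ˢ univ by
          ext q
          simp [rM10_pr_apply ι h0], Measure.prod_prod, hz, zero_mul]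
    exact measure_mono_null (fun x hx => hN hx) h1

theorem global_step (hn : 1 ≤ n) (h1 : ∀ x, ∃ y, x = ι y + ⟪x, e⟫ • e) (u : E n → ℝ) :
    (IsGlobalMinimizer fun x => u (rM10_pr ι x)) ↔ IsGlobalMinimizer u := by
  have hpι : ∀ y, rM10_pr ι (ι y) = y := fun y => by simpa using rM10_pr_apply ι h0 y 0
  constructor
  · intro h
    obtain ⟨K, v, hv, huv, -⟩ := H709.exists_minL (by omega) h
    have hinv : ∀ x (t : ℝ), v (x + t • e) = v x := fun x t => by
      have h2 : (fun x => v (x + t • e)) =ᵐ[volume] v := by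
        have h3 := (measurePreserving_add_right volume (t • e)).quasiMeasurePreserving.ae_eq_comp huv
        refine h3.symm.trans (EventuallyEq.trans (Eventually.of_forall fun z => ?_) huv)
        have h4 := rM10_pr_apply ι h0 0 t
        rw [map_zero, zero_add] at h4
        simp [h4]
      exact congrFun ((Continuous.ae_eq_iff_eq volume
        (hv.lip.continuous.comp (continuous_id.add continuous_const)) hv.lip.continuous).1 h2) x
    have hw : MinL K fun y => v (ι y) := ⟨mul_one K ▸ hv.lip.comp ι.lipschitz,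
      fun y => hv.nonneg _, fun z ⟨_, hz⟩ hz0 hzc => rM10_main ι hv he hinv h0 h1 hz hz0 hzc⟩
    refine rS7_min_congr ?_ (fun y => hpι y ▸ h.1 (ι y)) (global_of_minL hw)
    refine (ae_pr ι he h0 (p := fun y => v (ι y) = u y)).1 ?_
    filter_upwards [huv] with x hx
    rw [hx, ← hinv _ ⟪x, e⟫, rM10_decomp ι h0 h1]
  · intro h
    obtain ⟨K, v, hv, huv, -⟩ := H709.exists_minL hn h
    exact rS7_min_congr ((ae_pr ι he h0 (p := fun y => v y = u y)).2 huv.symm) (fun x => h.1 _)
      (global_of_minL (minL_step ι he h0 hv))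

end

lemma global_iso (hd : 1 ≤ d) (Φ : E d ≃ₗᵢ[ℝ] E d) {u : E d → ℝ} (h : IsGlobalMinimizer u) :
    IsGlobalMinimizer fun x => u (Φ x) := by
  obtain ⟨K, v, hv, huv, -⟩ := H709.exists_minL hd h
  exact rS7_min_congr (Φ.measurePreserving.quasiMeasurePreserving.ae_eq_comp huv.symm)
    (fun x => h.1 _) (global_of_minL (hv.isometry Φ))

open ContinuousLinearMap in
theorem global_adj (hd : 1 ≤ d) (u : E d → ℝ) (k : ℕ) : ∀ ι : E d →ₗᵢ[ℝ] E (d + k),
    (IsGlobalMinimizer fun x => u (adjoint ι.toContinuousLinearMap x)) ↔ IsGlobalMinimizer u := by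
  induction k with
  | zero =>
    intro ι
    let Φ : E d ≃ₗᵢ[ℝ] E d := ι.toLinearIsometryEquiv rfl
    have e : ∀ x, adjoint ι.toContinuousLinearMap x = Φ.symm x := fun x =>
      ext_inner_right ℝ fun y => by
        rw [adjoint_inner_left, ← Φ.inner_map_map (Φ.symm x), Φ.apply_symm_apply]
        rfl
    simp only [e]
    exact ⟨fun h => by simpa using global_iso hd Φ h, global_iso hd Φ.symm⟩
  | succ k ih =>
    intro ι
    obtain ⟨e, he, h2⟩ : ∃ e : E (d + k + 1), ‖e‖ = 1 ∧ ∀ y, ⟪ι y, e⟫ = 0 := by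
      have h3 := (LinearMap.range ι.toLinearMap).finrank_add_finrank_orthogonal
      have h4 := LinearMap.finrank_range_le ι.toLinearMap
      simp only [finrank_euclideanSpace, Fintype.card_fin] at h3 h4
      have : Nontrivial (LinearMap.range ι.toLinearMap)ᗮ :=
        Module.nontrivial_of_finrank_pos (R := ℝ) (by omega)
      obtain ⟨x, hx⟩ := exists_norm_eq (LinearMap.range ι.toLinearMap)ᗮ zero_le_one
      exact ⟨x, hx, fun y => x.2 _ ⟨y, rfl⟩⟩
    obtain ⟨j, h0, h1⟩ := rM10_exists he
    have hj : ∀ y, j (rM10_pr j (ι y)) = ι y := fun y => by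
      simpa [h2] using rM10_decomp j h0 h1 (ι y)
    let ι' : E d →ₗᵢ[ℝ] E (d + k) := ⟨(rM10_pr j).toLinearMap ∘ₗ ι.toLinearMap, fun y => by
      rw [← j.norm_map]
      exact (congrArg _ (hj y)).trans (ι.norm_map y)⟩
    have e1 : ∀ x, adjoint ι.toContinuousLinearMap x
        = adjoint ι'.toContinuousLinearMap (rM10_pr j x) := fun x =>
      ext_inner_right ℝ fun y => by
        rw [adjoint_inner_left, adjoint_inner_left, rM10_pr_inner]
        exact congrArg _ (hj y).symm
    simp only [e1]
    exact (global_step j he h0 (by omega) h1 fun z => u (adjoint ι'.toContinuousLinearMap z)).trans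
      (ih ι')

open ContinuousLinearMap in
/-- **Cylinders.** -/
theorem cylinder {n : ℕ} (hd : 1 ≤ d) (L : E n →L[ℝ] E d) (hL : L ∘L adjoint L = .id ℝ _)
    (u : E d → ℝ) : (IsGlobalMinimizer fun x => u (L x)) ↔ IsGlobalMinimizer u := by
  let ι : E d →ₗᵢ[ℝ] E n := ⟨(adjoint L).toLinearMap, fun y => by
    rw [← sq_eq_sq₀ (norm_nonneg _) (norm_nonneg _), ← real_inner_self_eq_norm_sq,
      ← real_inner_self_eq_norm_sq]
    exact (adjoint_inner_left L _ y).trans (congrArg _ (DFunLike.congr_fun hL y))⟩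
  have hn := LinearMap.finrank_le_finrank_of_injective (f := ι.toLinearMap) ι.injective
  simp only [finrank_euclideanSpace, Fintype.card_fin] at hn
  obtain ⟨k, rfl⟩ := Nat.exists_eq_add_of_le hn
  have e : adjoint ι.toContinuousLinearMap = L := adjoint_adjoint L
  simpa only [e] using global_adj hd u k ι

open ContinuousLinearMap in
theorem cylinder' {n : ℕ} (hd : 1 ≤ d) (ι : E d →ₗᵢ[ℝ] E n) {L : E n → E d}
    (hL : ∀ x y, ⟪L x, y⟫ = ⟪x, ι y⟫) (u : E d → ℝ) :
    (IsGlobalMinimizer fun x => u (L x)) ↔ IsGlobalMinimizer u := by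
  have e : L = adjoint ι.toContinuousLinearMap := funext fun x => ext_inner_right ℝ fun y => by
    rw [hL, adjoint_inner_left]
    rfl
  rw [e]
  refine cylinder hd _ (ContinuousLinearMap.ext fun y => ext_inner_right ℝ fun z => ?_) u
  rw [adjoint_adjoint, comp_apply, adjoint_inner_left]
  exact ι.inner_map_map y z

end Vale.Agent.N098
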