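import Vale.Agent.P098.R.FDefs

/-! # P098: four abbreviations used in the statement -/

open MeasureTheory Vale.Agent.P098.FDefs
open scoped RealInnerProductSpace

namespace Vale.Agent.N098

variable {V W : Type} [NormedAddCommGroup V] [InnerProductSpace ℝ V] [NormedAddCommGroup W]
  [InnerProductSpace ℝ W]

/-- `S` is a linear subspace of dimension `k`. -/
def IsSubspace (k : ℕ) (S : Set V) : Prop :=
  ∃ U : Submodule ℝ V, Module.finrank ℝ U = k ∧ (U : Set V) = S

/-- `L` is the adjoint of a linear isometry: an orthogonal projection onto a copy of `W`. -/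
def IsProjection (L : V → W) : Prop :=
  ∃ ι : W →ₗᵢ[ℝ] V, ∀ x y, ⟪L x, y⟫ = ⟪x, ι y⟫

variable [FiniteDimensional ℝ V] [MeasurableSpace V] [BorelSpace V]

/-- `u` is a nonzero, nonflat, one-homogeneous global minimizer. -/
def IsNonflatCone (u : V → ℝ) : Prop :=
  IsGlobalMinimizer u ∧ IsOneHomogeneous u ∧ ¬ (u =ᵐ[volume] fun _ => 0) ∧
    ¬ ∃ e : V, ‖e‖ = 1 ∧ u =ᵐ[volume] fun x => max ⟪x, e⟫ 0

/-- `u` is invariant under the translations by the vectors of `S`. -/
def IsInvariant (u : V → ℝ) (S : Set V) : Prop :=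
  ∀ y ∈ S, ∀ᵐ x, u (x + y) = u x

end Vale.Agent.N098
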