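import Vale.Agent.N098.Cyl
import Vale.Agent.P098.H246.Final
import Vale.Agent.P098C.Main

/-!
# P098: nonflat cones in every dimension at least seven, sharp size of the singular set
-/

open MeasureTheory Set Metric Filter
open scoped ContDiff RealInnerProductSpace Topology NNReal ENNReal

namespace Vale.Agent.N098

open Vale.Agent.P098 Vale.Agent.P098C Vale.Agent.P098.H246 ContinuousLinearMap

variable {d m : ℕ}

/-- The first `m` coordinates. -/
noncomputable def prj (h : m ≤ d) : E d →L[ℝ] E m :=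
  LinearMap.toContinuousLinearMap
    { toFun := fun x => WithLp.toLp 2 fun i => x (Fin.castLE h i)
      map_add' := fun _ _ => rfl
      map_smul' := fun _ _ => rfl }

lemma prj_apply (h : m ≤ d) (x : E d) (i : Fin m) : prj h x i = x (Fin.castLE h i) := rfl

lemma prj_adj (h : m ≤ d) : prj h ∘L adjoint (prj h) = .id ℝ _ := by
  ext y j
  have e : prj h (EuclideanSpace.single (Fin.castLE h j) 1) = EuclideanSpace.single j 1 := by
    ext i
    simp [prj_apply, Fin.ext_iff]
  have := adjoint_inner_left (prj h) (EuclideanSpace.single (Fin.castLE h j) 1) y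
  rw [e] at this
  simpa [prj_apply, EuclideanSpace.inner_single_right] using this

lemma prj_surj (h : m ≤ d) : Function.Surjective (prj h) := fun y =>
  ⟨_, DFunLike.congr_fun (prj_adj h) y⟩

lemma finrank_ker (h : m ≤ d) : Module.finrank ℝ (LinearMap.ker (prj h).toLinearMap) = d - m := by
  have := LinearMap.finrank_range_add_finrank_ker (prj h).toLinearMap
  rw [LinearMap.range_eq_top.2 (prj_surj h)] at this
  simp only [finrank_top, finrank_euclideanSpace, Fintype.card_fin] at this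
  omega

section
variable (h : 7 ≤ d)

lemma cone_min : IsGlobalMinimizer fun x => uu (prj h x) :=
  (cylinder (by norm_num) _ (prj_adj h) uu).2 uu_min

lemma cone_cont : Continuous fun x => uu (prj h x) := lip_uu.continuous.comp (prj h).continuous

lemma cone_pos : ∃ x : E d, 0 < uu (prj h x) := by
  obtain ⟨p, hp⟩ := uu_pos
  obtain ⟨x, rfl⟩ := prj_surj h p
  exact ⟨x, hp⟩

lemma cone_hom : IsOneHomogeneous fun x => uu (prj h x) := fun r hr =>
  Eventually.of_forall fun x => by simp only [map_smul, uu_smul, abs_of_pos hr]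

lemma cone_ne : ¬ (fun x => uu (prj h x)) =ᵐ[volume] fun _ => 0 := by
  intro h1
  obtain ⟨x, hx⟩ := cone_pos h
  exact hx.ne' (congrFun ((Continuous.ae_eq_iff_eq volume (cone_cont h) continuous_const).1 h1) x)

lemma cone_not_flat :
    ¬ ∃ e : E d, ‖e‖ = 1 ∧ (fun x => uu (prj h x)) =ᵐ[volume] fun x => max ⟪x, e⟫ 0 := by
  rintro ⟨e, -, h1⟩
  have e1 := congrFun ((Continuous.ae_eq_iff_eq volume (cone_cont h) (by fun_prop)).1 h1)
  obtain ⟨x, hx⟩ := cone_pos h
  have hx' : 0 < uu (prj h ((-1 : ℝ) • x)) := by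
    rw [map_smul, uu_smul]
    simpa using hx
  rw [e1] at hx hx'
  simp only [lt_max_iff, lt_irrefl, or_false, real_inner_smul_left] at hx hx'
  linarith

lemma cone_sing {x : E d} (hx : prj h x = 0) : x ∈ singularSet fun x => uu (prj h x) := by
  obtain ⟨p, hp⟩ := cone_pos h
  have hl : ∀ t : ℝ, uu (prj h (x + t • p)) = |t| * uu (prj h p) := fun t => by
    rw [map_add, hx, zero_add, map_smul, uu_smul]
  have hc : Continuous fun t : ℝ => x + t • p := by fun_prop
  have h0 : Tendsto (fun t : ℝ => x + t • p) (𝓝 0) (𝓝 x) := by simpa using hc.tendsto 0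
  have hz : uu (prj h x) = 0 := by simpa using hl 0
  constructor
  · rw [(isOpen_lt continuous_const (cone_cont h)).frontier_eq]
    refine ⟨mem_closure_of_tendsto (h0.mono_left (nhdsWithin_le_nhds (s := {0}ᶜ))) ?_,
      fun h1 => (h1.trans_eq hz).false⟩
    filter_upwards [self_mem_nhdsWithin] with t ht
    exact (mul_pos (abs_pos.2 ht) hp).trans_eq (hl t).symm
  · rintro ⟨N, U, hN, hxN, hU, h1, -⟩
    have hd : DifferentiableAt ℝ U (x + (0 : ℝ) • p) := by
      simpa using (hU.contDiffAt (hN.mem_nhds hxN)).differentiableAt (by simp)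
    have hg : DifferentiableAt ℝ (fun t : ℝ => U (x + t • p)) 0 := hd.comp (0 : ℝ) (by fun_prop)
    have h2 : ∀ᶠ t in 𝓝[≠] (0 : ℝ), U (x + t • p) = |t| * uu (prj h p) := by
      filter_upwards [self_mem_nhdsWithin, nhdsWithin_le_nhds (h0.eventually (hN.mem_nhds hxN))]
        with t ht ht'
      have h3 := h1 _ ht'
      have h4 := mul_pos (abs_pos.2 ht) hp
      simp only [hl] at h3
      rcases le_total (U (x + t • p)) 0 with h5 | h5
      · rw [max_eq_right h5] at h3
        linarith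
      · rw [h3, max_eq_left h5]
    have h3 : U (x + (0 : ℝ) • p) = |0| * uu (prj h p) :=
      tendsto_nhds_unique_of_eventuallyEq (hg.continuousAt.tendsto.mono_left nhdsWithin_le_nhds)
        ((by fun_prop : Continuous fun t : ℝ => |t| * uu (prj h p)).continuousAt.tendsto.mono_left
          nhdsWithin_le_nhds) h2
    have h4 : (fun t : ℝ => |t|) =ᶠ[𝓝 0] fun t => U (x + t • p) / uu (prj h p) := by
      rw [← nhdsNE_sup_pure, EventuallyEq, eventually_sup, eventually_pure]
      refine ⟨h2.mono fun t ht => ?_, ?_⟩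
      · rw [ht, mul_div_cancel_right₀ _ hp.ne']
      · rw [h3, mul_div_cancel_right₀ _ hp.ne']
    exact not_differentiableAt_abs_zero ((hg.div_const _).congr_of_eventuallyEq h4)

end

theorem invariant_iff (hd : 1 ≤ d) (k : ℕ) :
    (∃ (u : E d → ℝ) (V : Submodule ℝ (E d)), IsGlobalMinimizer u ∧ IsOneHomogeneous u ∧
      ¬ (u =ᵐ[volume] fun _ => 0) ∧ (¬ ∃ e : E d, ‖e‖ = 1 ∧ u =ᵐ[volume] fun x => max ⟪x, e⟫ 0) ∧
      Module.finrank ℝ V = k ∧ ∀ y ∈ V, ∀ᵐ x, u (x + y) = u x) ↔ k + 7 ≤ d := by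
  constructor
  · rintro ⟨u, V, h1, h2, h3, h4, rfl, h6⟩
    by_contra h
    exact (flat_of_invariant hd u h1 h2 V h6 (by omega)).elim h3 h4
  · intro h
    have h7 : 7 ≤ d := by omega
    refine ⟨_, LinearMap.ker (prj (Nat.sub_le d k)).toLinearMap, cone_min h7, cone_hom h7,
      cone_ne h7, cone_not_flat h7, by rw [finrank_ker]; omega,
      fun y hy => Eventually.of_forall fun x => ?_⟩
    have : prj h7 y = 0 := by
      ext i
      exact congrArg (fun z : E (d - k) => z (Fin.castLE (by omega) i)) (LinearMap.mem_ker.1 hy)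
    simp [this]

lemma reg (hd : 1 ≤ d) {v : E d → ℝ} (hc : Continuous v) (hv : IsGlobalMinimizer v) :
    (d ≤ 6 → singularSet v = ∅) ∧ dimH (singularSet v) ≤ ((d - 7 : ℕ) : ℝ≥0∞) := by
  obtain ⟨w, h1, h2, -, h3, -, h4⟩ := partial_regularity hd v hv
  rw [(Continuous.ae_eq_iff_eq volume hc h1).1 h2]
  exact ⟨h3, h4⟩

theorem smooth_iff (hd : 1 ≤ d) :
    (∀ v : E d → ℝ, Continuous v → IsGlobalMinimizer v → singularSet v = ∅) ↔ d ≤ 6 := by
  refine ⟨fun h => ?_, fun h v hc hv => (reg hd hc hv).1 h⟩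
  by_contra h6
  have h7 : 7 ≤ d := by omega
  exact notMem_empty _ (h _ (cone_cont h7) (cone_min h7) ▸ cone_sing h7 (map_zero _))

lemma sing_comp {n : ℕ} (L : E n →L[ℝ] E d) {c : ℝ} (hc : 0 < c)
    (hL : ∀ y, ‖adjoint L y‖ = c * ‖y‖) {v : E d → ℝ} {w : E n → ℝ}
    (hw : ∀ x, w x = c⁻¹ * v (L x)) {x : E n} (hx : x ∈ singularSet w) : L x ∈ singularSet v := by
  have e : {y | 0 < w y} = L ⁻¹' {y | 0 < v y} := by
    ext y
    simp [hw, hc]
  refine ⟨L.continuous.frontier_preimage_subset _ (e ▸ hx.1), ?_⟩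
  rintro ⟨N, U, hN, hxN, hU, h1, h2⟩
  refine hx.2 ⟨L ⁻¹' N, fun y => c⁻¹ * U (L y), hN.preimage L.continuous, hxN,
    contDiffOn_const.mul (hU.comp L.contDiff.contDiffOn fun y hy => hy), fun y hy => ?_,
    fun y hy h3 => ?_⟩
  · rw [hw, h1 _ hy, mul_max_of_nonneg _ _ (inv_nonneg.2 hc.le), mul_zero]
  · have hd := ((hU.contDiffAt (hN.mem_nhds hy)).differentiableAt (by simp)).hasFDerivAt
    have h4 : fderiv ℝ (fun y => c⁻¹ * U (L y)) y = _ :=
      ((hd.comp y L.hasFDerivAt).const_mul c⁻¹).fderiv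
    have h5 : gradient (fun y => c⁻¹ * U (L y)) y = c⁻¹ • adjoint L (gradient U (L y)) :=
      ext_inner_right ℝ fun z => by
        rw [ModA.inner_gradient, h4, real_inner_smul_left, adjoint_inner_left, ModA.inner_gradient]
        rfl
    rw [h5, norm_smul, hL, h2 _ hy (by simpa [hc.ne'] using h3), Real.norm_of_nonneg
      (inv_nonneg.2 hc.le), mul_one, inv_mul_cancel₀ hc.ne']

lemma sing_uu {x : E 7} (hx : x ∈ singularSet uu) : x = 0 := by
  by_contra h0
  obtain ⟨w, h1, h2, -, -, h3, -⟩ := partial_regularity (by norm_num) uu uu_min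
  rw [← (Continuous.ae_eq_iff_eq volume lip_uu.continuous h1).1 h2] at h3
  refine (Icc_infinite (show (1 : ℝ) < 2 by norm_num)).image
    (smul_left_injective ℝ h0).injOn ((h3 rfl _ (isCompact_closedBall 0 (2 * ‖x‖))).subset ?_)
  rintro _ ⟨r, hr, rfl⟩
  have h4 : 0 < r := by linarith [hr.1]
  refine ⟨sing_comp (r • ContinuousLinearMap.id ℝ (E 7)) h4 (fun y => ?_) (fun y => ?_) hx, ?_⟩
  · simp [norm_smul, abs_of_pos h4, adjoint_id]
  · simp [uu_smul, abs_of_pos h4, h4.ne']
  · rw [mem_closedBall_zero_iff, norm_smul, Real.norm_of_nonneg h4.le]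
    exact mul_le_mul_of_nonneg_right hr.2 (norm_nonneg _)

theorem sing_exact (h : 7 ≤ d) : ∃ (v : E d → ℝ) (V : Submodule ℝ (E d)), Continuous v ∧
    IsGlobalMinimizer v ∧ IsOneHomogeneous v ∧ Module.finrank ℝ V = d - 7 ∧ singularSet v = V := by
  refine ⟨_, _, cone_cont h, cone_min h, cone_hom h, finrank_ker h,
    Subset.antisymm (fun x hx => ?_) fun x hx => cone_sing h hx⟩
  refine sing_uu (sing_comp (prj h) one_pos (fun y => ?_) (by simp) hx)
  rw [one_mul, ← sq_eq_sq₀ (norm_nonneg _) (norm_nonneg _), ← real_inner_self_eq_norm_sq,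
    ← real_inner_self_eq_norm_sq]
  exact (adjoint_inner_left _ _ y).trans (congrArg _ (DFunLike.congr_fun (prj_adj h) y))

theorem dim_sharp (h : 7 ≤ d) : IsGreatest {s : ℝ≥0∞ | ∃ v : E d → ℝ, Continuous v ∧
    IsGlobalMinimizer v ∧ dimH (singularSet v) = s} ((d - 7 : ℕ) : ℝ≥0∞) := by
  refine ⟨⟨_, cone_cont h, cone_min h,
    le_antisymm (reg (by omega) (cone_cont h) (cone_min h)).2 ?_⟩, ?_⟩
  · have h1 := (LinearMap.ker (prj h).toLinearMap).subtypeₗᵢ.isometry.dimH_image univ
    rw [Real.dimH_univ_eq_finrank, finrank_ker] at h1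
    rw [← h1]
    refine dimH_mono ?_
    rintro _ ⟨y, -, rfl⟩
    exact cone_sing h y.2
  · rintro _ ⟨v, hc, hv, rfl⟩
    exact (reg (by omega) hc hv).2

end Vale.Agent.N098
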